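import Vale.Agent.P027M.Defs
import Vale.Agent.P027Z.Hts

/-! # P027M, block A: from a progression to an admissible parameter (arithmetic in `ℚ`) -/

set_option linter.all false

namespace Vale.Agent.P027M.A

open Height Vale.Agent.P027Z

/-- the four indices of the progression -/
def i1 (W M : ℕ) : ℕ := M + 16729 * 16249 * (16729 * W)
def i2 (W M : ℕ) : ℕ := M + 2 * 17209 * 16249 * (16729 * W)
def i3 (W M : ℕ) : ℕ := M + 3 * 17209 * 16729 * (16729 * W)

/-- the parameter -/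
def gp (W M : ℕ) (s : ℚ) : ℚ := 17689 * (1 + M * s) / (16729 * (1 + i2 W M * s))

/-- the product of the standard numbers -/
def La : ℕ := 17689 * 17209 * 16729 * 16249

lemma vz {p : ℕ} (hp : p.Prime) {a b : ℤ} (ha : ¬ (p : ℤ) ∣ a) (hb : ¬ (p : ℤ) ∣ b) {y z : ℚ}
    (hy : y ≠ 0) (hz : z ≠ 0) (h1 : (4 : ℤ) ∣ padicValRat p y) (h2 : (4 : ℤ) ∣ padicValRat p z) :
    (4 : ℤ) ∣ padicValRat p (a * y / (b * z)) := by
  haveI := Fact.mk hp
  have a0 : (a : ℚ) ≠ 0 := by exact_mod_cast fun e : a = 0 => ha (e ▸ dvd_zero _)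
  have b0 : (b : ℚ) ≠ 0 := by exact_mod_cast fun e : b = 0 => hb (e ▸ dvd_zero _)
  rw [padicValRat.div (mul_ne_zero a0 hy) (mul_ne_zero b0 hz), padicValRat.mul a0 hy,
    padicValRat.mul b0 hz, padicValRat.of_int, padicValRat.of_int,
    padicValInt.eq_zero_of_not_dvd ha, padicValInt.eq_zero_of_not_dvd hb]
  simpa using dvd_sub h1 h2

section
variable {W M : ℕ} {s x : ℚ} (s0 : 0 ≤ s) (x0 : x ≠ 0)
include s0 x0

lemma vis_sub {p : ℕ} (h : p ∈ visSet (gp W M s)) : p.Prime ∧ (p ∣ La ∨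
    p ∈ Vs 4 (x * (1 + M * s)) ∨ p ∈ Vs 4 (x * (1 + i1 W M * s)) ∨
    p ∈ Vs 4 (x * (1 + i2 W M * s)) ∨ p ∈ Vs 4 (x * (1 + i3 W M * s))) := by
  obtain ⟨a, b, c⟩ := Finset.mem_filter.1 h
  have pp := Nat.prime_of_mem_primeFactors a
  refine ⟨pp, ?_⟩
  by_contra hn
  simp only [not_or, mem_Vs, not_and, not_not] at hn
  obtain ⟨n, v0, v1, v2, v3⟩ := hn
  have p2 : p ≠ 2 := by omega
  have nz : ∀ k : ℕ, x * (1 + k * s) ≠ 0 := fun k => mul_ne_zero x0 (by positivity)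
  have nd : ∀ a : ℕ, a ∣ 2 * La → ¬ (p : ℤ) ∣ (a : ℤ) := fun a ha e => by
    rcases (Nat.Prime.dvd_mul pp).1 ((Int.natCast_dvd_natCast.1 e).trans ha) with e | e
    · exact p2 ((Nat.prime_dvd_prime_iff_eq pp Nat.prime_two).1 e)
    · exact n e
  have d2 := nd 16729 (by norm_num [La])
  have a2 : (1 + i2 W M * s : ℚ) ≠ 0 := by positivity
  refine c ⟨?_, ?_, ?_⟩
  · have := vz pp (nd 17689 (by norm_num [La])) d2 (nz M) (nz (i2 W M)) (v0 pp p2) (v2 pp p2)
    convert this using 2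
    unfold gp
    push_cast
    field_simp
  · have := vz pp (nd 34418 (by norm_num [La])) d2 (nz (i1 W M)) (nz (i2 W M)) (v1 pp p2) (v2 pp p2)
    convert this using 2
    unfold gp
    push_cast
    field_simp
    simp only [i1, i2]
    push_cast
    ring
  · have := vz pp (a := -(32498 : ℕ)) (fun e => nd 32498 (by norm_num [La]) (dvd_neg.1 e)) d2
      (nz (i3 W M)) (nz (i2 W M)) (v3 pp p2) (v2 pp p2)
    convert this using 2
    unfold gp
    push_cast
    field_simp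
    simp only [i3, i2]
    push_cast
    ring

end

lemma La_prime {p : ℕ} (hp : p.Prime) (h : p ∣ La) : p % 8 = 1 ∨ p = 7 ∨ p = 19 := by
  have e : La = 7 * 7 * 19 * 19 * 17209 * 16729 * 16249 := by norm_num [La]
  rw [e] at h
  simp only [hp.dvd_mul] at h
  have k : ∀ q : ℕ, q.Prime → p ∣ q → p = q := fun q hq e =>
    (Nat.prime_dvd_prime_iff_eq hp hq).1 e
  rcases h with (((((h | h) | h) | h) | h) | h) | h
  all_goals
    have := k _ (by norm_num) h
    omega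

lemma gp_sub {W M : ℕ} {s : ℚ} (s0 : 0 ≤ s) :
    gp W M s = g0 + W * (-(2 * 17689 * 17209 * 16249) * (s / (1 + i2 W M * s))) := by
  have a2 : (1 + i2 W M * s : ℚ) ≠ 0 := by positivity
  unfold gp g0
  field_simp
  simp only [i2]
  push_cast
  ring

lemma adm {W M : ℕ} {δ s x : ℚ} (hM : (2 * 17689 * 17209 * 16249 * W : ℚ) < δ * M) (s0 : 0 ≤ s)
    (x0 : x ≠ 0) (loc : (s / (1 + i2 W M * s)).den.Coprime W)
    (v : ∀ k ∈ [M, i1 W M, i2 W M, i3 W M], ∀ p ∈ Vs 4 (x * (1 + k * s)), p % 8 = 1) :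
    Adm W δ (gp W M s) := by
  refine ⟨?_, ⟨_, gp_sub s0, ?_⟩, fun p hp => ?_⟩
  · have a2 : (0 : ℚ) < 1 + i2 W M * s := by positivity
    have hi : (M : ℚ) ≤ i2 W M := by exact_mod_cast Nat.le_add_right _ _
    have w0 : (0 : ℚ) ≤ W := by positivity
    have m0 : (0 : ℚ) ≤ M := by positivity
    have d0 : 0 < δ := by
      by_contra c
      nlinarith [mul_nonneg (neg_nonneg.2 (not_lt.1 c)) m0]
    have t0 : 0 ≤ s / (1 + i2 W M * s) := by positivity
    have t1 : M * (s / (1 + i2 W M * s)) < 1 := by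
      rw [← mul_div_assoc, div_lt_one a2]
      nlinarith
    rw [gp_sub s0, add_sub_cancel_left, abs_of_nonpos (by nlinarith)]
    nlinarith [mul_le_mul_of_nonneg_right hM.le t0]
  · refine Nat.Coprime.coprime_dvd_left ?_ loc
    have := Rat.mul_den_dvd ((-(2 * 17689 * 17209 * 16249) : ℤ) : ℚ) (s / (1 + i2 W M * s))
    rw [Rat.den_intCast, one_mul] at this
    convert this using 3
    norm_num
  · obtain ⟨pp, h | h | h | h | h⟩ := vis_sub s0 x0 hp
    · exact La_prime pp h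
    all_goals exact Or.inl (v _ (by simp) p h)

lemma vis_le {W M : ℕ} {s x : ℚ} (s0 : 0 ≤ s) (x0 : x ≠ 0) {T : Finset ℕ} (hT : ∀ p ∈ T, p.Prime)
    (v : ∀ k ∈ [M, i1 W M, i2 W M, i3 W M], Vs 4 (x * (1 + k * s)) ⊆ T) :
    Vis (gp W M s) ≤ La * ∏ p ∈ T, p := by
  refine Nat.le_of_dvd (mul_pos (by norm_num [La]) (Finset.prod_pos fun p hp => (hT p hp).pos))
    (Finset.prod_primes_dvd _ (fun p hp => (vis_sub s0 x0 hp).1.prime) fun p hp => ?_)
  obtain ⟨pp, h | h | h | h | h⟩ := vis_sub s0 x0 hp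
  · exact dvd_mul_of_dvd_left h _
  all_goals exact dvd_mul_of_dvd_right (Finset.dvd_prod_of_mem _ (v _ (by simp) h)) _

/-- the constant of the comparison of the heights -/
noncomputable def cst (W M : ℕ) : ℝ := 2 + logHeight₁ (17689 : ℚ) + logHeight₁ (16729 : ℚ) +
  logHeight₁ (16729 * i2 W M : ℚ) + logHeight₁ (17689 * M : ℚ)

lemma cst_nonneg (W M : ℕ) : 0 ≤ cst W M := by
  unfold cst
  have := zero_le_logHeight₁ (K := ℚ)
  linarith [this 17689, this 16729, this (16729 * i2 W M), this (17689 * M)]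

lemma ht_le {W M : ℕ} (hW : 0 < W) {s : ℚ} (s0 : 0 ≤ s) :
    logHeight₁ s ≤ cst W M + 2 * logHeight₁ (gp W M s) := by
  have a2 : (1 + i2 W M * s : ℚ) ≠ 0 := by positivity
  have w0 : (W : ℚ) ≠ 0 := by positivity
  have e1 : (16729 * i2 W M : ℚ) * gp W M s - 17689 * M =
      17689 * (2 * 17209 * 16249 * (16729 * W)) / (1 + i2 W M * s) := by
    unfold gp
    field_simp
    simp only [i2]
    push_cast
    ring
  have e : s = (17689 - 16729 * gp W M s) / ((16729 * i2 W M : ℚ) * gp W M s - 17689 * M) := by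
    rw [e1]
    unfold gp
    field_simp
    simp only [i2]
    push_cast
    ring
  have t1 := (congrArg logHeight₁ e).trans_le (h_div _ _)
  have t2 := h_sub 17689 (16729 * gp W M s)
  have t3 := h_sub ((16729 * i2 W M : ℚ) * gp W M s) (17689 * M)
  have t4 := logHeight₁_mul_le (16729 : ℚ) (gp W M s)
  have t5 := logHeight₁_mul_le (16729 * i2 W M : ℚ) (gp W M s)
  unfold cst
  linarith

/-- the height of the ratio of a progression -/
theorem point {W M κ : ℕ} {δ s x : ℚ} {C : ℝ} (hW : 0 < W) (H : ∀ g : ℚ, Adm W δ g →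
      Real.log (max g.num.natAbs g.den : ℕ) ≤ C * (Vis g : ℝ) ^ κ)
    (hM : (2 * 17689 * 17209 * 16249 * W : ℚ) < δ * M) (s0 : 0 ≤ s)
    (x0 : x ≠ 0) (loc : (s / (1 + i2 W M * s)).den.Coprime W) {T : Finset ℕ}
    (hT : ∀ p ∈ T, p.Prime) (v : ∀ k ∈ [M, i1 W M, i2 W M, i3 W M],
      ∀ p ∈ Vs 4 (x * (1 + k * s)), p % 8 = 1 ∧ p ∈ T) :
    logHeight₁ s ≤ (cst W M + 2 * (|C| * La ^ κ)) * (∏ p ∈ T, p : ℕ) ^ κ := by
  have a := H _ (adm hM s0 x0 loc fun k hk p hp => (v k hk p hp).1)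
  rw [← Rat.logHeight₁_eq_log_max] at a
  have b := vis_le (W := W) (M := M) s0 x0 hT fun k hk p hp => (v k hk p hp).2
  have c : (1 : ℝ) ≤ (∏ p ∈ T, p : ℕ) ^ κ :=
    one_le_pow₀ (by exact_mod_cast Finset.prod_pos fun p hp => (hT p hp).pos)
  have d : C * (Vis (gp W M s) : ℝ) ^ κ ≤ |C| * (La * (∏ p ∈ T, p : ℕ)) ^ κ :=
    mul_le_mul (le_abs_self C) (pow_le_pow_left₀ (by positivity) (by exact_mod_cast b) _)
      (by positivity) (abs_nonneg C)
  rw [mul_pow] at d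
  have e := ht_le (M := M) hW s0
  nlinarith [cst_nonneg W M]

lemma mod_eight {p : ℕ} (hp : p.Prime) (h2 : p ≠ 2) {r : ℚ} (h : Dv p (r ^ 4 + 1)) :
    p % 8 = 1 := by
  haveI := Fact.mk hp
  have h1 : (p : ℤ) ∣ r.num ^ 4 + (r.den : ℤ) ^ 4 := by
    rw [← dv_int]
    convert h.mul_int hp ((r.den : ℤ) ^ 4) using 1
    push_cast
    rw [← Rat.mul_den_eq_num]
    ring
  have h3 : ((r.den : ℤ) : ZMod p) ≠ 0 := by
    intro e
    rw [ZMod.intCast_zmod_eq_zero_iff_dvd] at e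
    have e2 : (p : ℤ) ∣ r.num := (Nat.prime_iff_prime_int.1 hp).dvd_of_dvd_pow
      ((dvd_add_left (dvd_pow e (by norm_num))).1 h1)
    have := Nat.dvd_gcd (Int.natCast_dvd.1 e2) (Int.natCast_dvd_natCast.1 e)
    rw [r.reduced] at this
    exact hp.one_lt.ne' (Nat.dvd_one.1 this)
  rw [← ZMod.intCast_zmod_eq_zero_iff_dvd] at h1
  set z : ZMod p := (r.num : ZMod p) / ((r.den : ℤ) : ZMod p) with hz
  have h4 : z ^ 4 = -1 := by
    rw [hz, div_pow, div_eq_iff (pow_ne_zero _ h3)]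
    push_cast at h1 ⊢
    linear_combination h1
  have h5 : orderOf z = 2 ^ 3 := by
    refine orderOf_eq_prime_pow (n := 2) ?_ ?_
    · rw [show 2 ^ 2 = 4 by norm_num, h4]
      haveI : Fact (2 < p) := ⟨lt_of_le_of_ne hp.two_le (Ne.symm h2)⟩
      exact ZMod.neg_one_ne_one
    · rw [show 2 ^ (2 + 1) = 4 * 2 by norm_num, pow_mul, h4]
      norm_num
  have z0 : z ≠ 0 := fun e => by simp [e] at h4
  have := ZMod.orderOf_dvd_card_sub_one z0
  rw [h5] at this
  have := hp.two_le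
  omega

lemma mem_iff {p : ℕ} (hp : p.Prime) {O : ValuationSubring ℚ} (hO : (p : ℚ) ∈ O.nonunits) (x : ℚ) :
    x ∈ O ↔ ¬ p ∣ x.den := by
  constructor
  · intro h e
    have a : ((x.den : ℤ) : ℚ) ∈ O.nonunits :=
      (int_nu_iff hp hO _).2 (Int.natCast_dvd_natCast.2 e)
    have b := nu_mul_left h a
    rw [Int.cast_natCast, Rat.mul_den_eq_num, int_nu_iff hp hO] at b
    have := Nat.dvd_gcd (Int.natCast_dvd.1 b) e
    rw [x.reduced] at this
    exact hp.one_lt.ne' (Nat.dvd_one.1 this)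
  · intro h
    have a : ((x.den : ℤ) : ℚ) ∉ O.nonunits := fun e =>
      h (Int.natCast_dvd_natCast.1 ((int_nu_iff hp hO _).1 e))
    have := mul_mem (intCast_mem O x.num) (inv_mem_of_not_nu a).2
    rwa [Int.cast_natCast, ← div_eq_mul_inv, Rat.num_div_den] at this

lemma den_odd {p : ℕ} (hp : p.Prime) {x : ℚ} {b : ℕ} (h : (p * x ^ 2 : ℚ).den = b ^ 2 ^ 1) :
    ¬ p ∣ x.den := by
  haveI := Fact.mk hp
  have key : ∀ y : ℚ, p ∣ y.den → padicValRat p y = -(padicValNat p y.den : ℤ) := fun y hd => by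
    have h1 : ¬ (p : ℤ) ∣ y.num := fun h2 => by
      have := Nat.dvd_gcd (Int.natCast_dvd.1 h2) hd
      rw [y.reduced] at this
      exact hp.one_lt.ne' (Nat.dvd_one.1 this)
    rw [padicValRat_def, padicValInt.eq_zero_of_not_dvd h1]
    simp
  intro e
  have x0 : x ≠ 0 := fun c => by
    rw [c] at e
    exact hp.one_lt.ne' (Nat.dvd_one.1 e)
  have a := key x e
  have a1 : 0 < padicValNat p x.den := one_le_padicValNat_of_dvd x.den_nz e
  have c : padicValRat p (p * x ^ 2 : ℚ) = 1 + 2 * padicValRat p x := by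
    rw [padicValRat.mul (by exact_mod_cast hp.ne_zero) (pow_ne_zero _ x0), padicValRat.pow,
      padicValRat.self hp.one_lt]
    rfl
  by_cases d : p ∣ (p * x ^ 2 : ℚ).den
  · have f := key _ d
    have b0 : b ≠ 0 := fun z => (p * x ^ 2 : ℚ).den_nz (by rw [h, z]; norm_num)
    rw [h, padicValNat.pow] at f
    push_cast at f
    omega
  · rw [padicValRat_def, padicValNat.eq_zero_of_not_dvd d] at c
    omega

end Vale.Agent.P027M.A
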