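import Vale.Agent.P027M.A.Ar
import Vale.Agent.P027G.Final
import Vale.Agent.P027G.Rel
import Vale.Agent.P027G.Gt
import Vale.Agent.P027G.Sz
import Vale.Agent.P027G.Maj

/-! # P027M, block A: the height inequality implies the negative answer -/

set_option linter.all false

namespace Vale.Agent.P027M.A

open Filter Height Vale.Agent.P027Z Vale.Agent.P027G MvPolynomial

section
variable {J : Type} {U : Ultrafilter J} (θ : (ℤ → ℚ) →+* Germ (U : Filter J) ℚ) (ps : ParStar)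

lemma rep_nonneg (x d : ℤ → ℕ) : ∀ᶠ w in U, 0 ≤ rep θ (fun i => (d i : ℚ) / x i) w := by
  choose a b c e h using fun i => Nat.sum_four_squares (d i * x i)
  have sq : ∀ a : ℤ → ℕ, ∀ᶠ w in U, 0 ≤ rep θ (fun i => ((a i : ℚ) / x i) * ((a i : ℚ) / x i)) w :=
    fun a => (rep_mul θ _ _).mono fun w hw => hw ▸ mul_self_nonneg _
  have e1 : (fun i => (d i : ℚ) / x i) = fun i => (((a i : ℚ) / x i) * ((a i : ℚ) / x i) +
      ((b i : ℚ) / x i) * ((b i : ℚ) / x i)) + (((c i : ℚ) / x i) * ((c i : ℚ) / x i) +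
      ((e i : ℚ) / x i) * ((e i : ℚ) / x i)) := by
    funext i
    by_cases z : (x i : ℚ) = 0
    · simp [z]
    have : (a i : ℚ) ^ 2 + b i ^ 2 + c i ^ 2 + e i ^ 2 = d i * x i := by exact_mod_cast h i
    field_simp
    linear_combination -this
  rw [e1]
  filter_upwards [sq a, sq b, sq c, sq e, rep_add θ _ _,
    rep_add θ (fun i => ((a i : ℚ) / x i) * ((a i : ℚ) / x i))
      (fun i => ((b i : ℚ) / x i) * ((b i : ℚ) / x i)),
    rep_add θ (fun i => ((c i : ℚ) / x i) * ((c i : ℚ) / x i))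
      (fun i => ((e i : ℚ) / x i) * ((e i : ℚ) / x i))] with w s1 s2 s3 s4 b1 b2 b3
  rw [b1, b2, b3]
  positivity

include ps

lemma rep_mem {p : ℕ} (hp : p.Prime) {O : ValuationSubring ℚ} (hO : (p : ℚ) ∈ O.nonunits)
    (t : ℤ → ℤ) : ∀ᶠ w in U, rep θ (fun i => (t i : ℚ)) w ∈ O := by
  have a := germ_den ps 1 U θ (fun i => p * (t i * t i)) _ (rep_spec θ _).symm
  have e : (fun i => ((p * (t i * t i) : ℤ) : ℚ)) = fun i => (p : ℚ) * ((t i : ℚ) * t i) := by
    funext i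
    push_cast
    rfl
  rw [e] at a
  filter_upwards [a, rep_mul θ (fun _ => (p : ℚ)) (fun i => (t i : ℚ) * t i),
    rep_mul θ (fun i => (t i : ℚ)) (fun i => (t i : ℚ)), rep_const θ p] with w ⟨b, hb⟩ b1 b2 b3
  rw [b1, b2, b3, ← sq] at hb
  exact (mem_iff hp hO _).2 (den_odd hp hb)

lemma rep_loc {W : ℕ} (hW : 0 < W) (d q : ℤ → ℕ) (hq : ∀ i, (q i).Prime ∧ W < q i) :
    ∀ᶠ w in U, (hat θ d w / hat θ q w).den.Coprime W := by
  have key : ∀ p ∈ W.primeFactors, ∀ᶠ w in U, ¬ p ∣ (hat θ d w / hat θ q w).den := by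
    intro p hp
    have pp := Nat.prime_of_mem_primeFactors hp
    have pW := Nat.le_of_mem_primeFactors hp
    obtain ⟨O, hO⟩ := exists_O pp
    have co : ∀ i, IsCoprime (q i : ℤ) p := fun i => by
      rw [Nat.isCoprime_iff_coprime, Nat.coprime_primes (hq i).1 pp]
      have := (hq i).2
      omega
    choose y z e using co
    have e' : (fun i => (y i : ℚ) * ((q i : ℤ) : ℚ) + (z i : ℚ) * p) = fun _ => 1 := by
      funext i
      exact_mod_cast e i
    have h1 := rep_add θ (fun i => (y i : ℚ) * ((q i : ℤ) : ℚ)) (fun i => (z i : ℚ) * p)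
    rw [e'] at h1
    filter_upwards [h1, rep_mul θ (fun i => (y i : ℚ)) (fun i => ((q i : ℤ) : ℚ)),
      rep_mul θ (fun i => (z i : ℚ)) (fun _ => (p : ℚ)), rep_const θ 1, rep_const θ p,
      rep_mem θ ps pp hO y, rep_mem θ ps pp hO z, rep_mem θ ps pp hO fun i => d i]
      with w b1 b2 b3 b4 b5 m1 m2 m3
    rw [b2, b3, b4, b5] at b1
    have n : hat θ q w ∉ O.nonunits := fun c =>
      one_not_nu (b1 ▸ nu_add (nu_mul_left m1 c) (nu_mul_left m2 hO))
    rw [← mem_iff pp hO, div_eq_mul_inv]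
    exact mul_mem m3 (inv_mem_of_not_nu n).2
  filter_upwards [(eventually_all_finset _).2 key] with w hw
  exact Nat.Coprime.symm (Nat.coprime_of_dvd fun p pp a =>
    hw p (Nat.mem_primeFactors.2 ⟨pp, a, hW.ne'⟩))

lemma rep_eight (q : ℤ → ℕ) (hq : ∀ i, (q i).Prime ∧ q i % 24 = 17) :
    ∀ᶠ w in U, ∀ p ∈ Vs (2 ^ 2) (hat θ q w), p % 8 = 1 := by
  refine vis θ ps 2 (fun i => q i) (fun _ p => p % 8 = 1) fun p hp ho => ?_
  choose r t e using fun i => a4.1 (q i) (hq i).1 (by have := (hq i).2; omega)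
  have a := ho t
  have e' : (fun i => ((q i : ℤ) : ℚ) * t i) =
      fun i => ((r i : ℚ) * r i) * ((r i : ℚ) * r i) + 1 := by
    funext i
    have := congrArg (Int.cast (R := ℚ)) (e i)
    push_cast at this ⊢
    linear_combination -this
  rw [e'] at a
  filter_upwards [a, rep_add θ (fun i => ((r i : ℚ) * r i) * ((r i : ℚ) * r i)) (fun _ => 1),
    rep_mul θ (fun i => (r i : ℚ) * r i) (fun i => (r i : ℚ) * r i),
    rep_mul θ (fun i => (r i : ℚ)) (fun i => (r i : ℚ)), rep_const θ 1] with w b b1 b2 b3 b4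
  rw [b1, b2, b3, b4] at b
  refine mod_eight (hp w).1 (hp w).2 (r := rep θ (fun i => (r i : ℚ)) w) ?_
  unfold Dv
  convert b using 3
  ring

/-- the height of the image of the ratio of a long progression -/
lemma ratio {W M κ : ℕ} {δ : ℚ} {C : ℝ} (hW : 0 < W) (H : ∀ g : ℚ, Adm W δ g →
      Real.log (max g.num.natAbs g.den : ℕ) ≤ C * (Vis g : ℝ) ^ κ)
    (hM : (2 * 17689 * 17209 * 16249 * W : ℚ) < δ * M) {x d : ℤ → ℕ} {F : Finset (ℤ → ℕ)}
    (h : ∀ i, ∀ l < i3 W M + 1, (x i + l * d i).Prime ∧ (x i + l * d i) % 24 = 17 ∧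
      W < x i + l * d i) (hF : ∀ l < i3 W M + 1, (fun i => x i + l * d i) ∈ F) :
    ∀ᶠ w in U, logHeight₁ (rep θ (fun i => (d i : ℚ) / x i) w) ≤
      (cst W M + 2 * (|C| * La ^ κ)) * (Mo θ (2 ^ 2) F w) ^ κ := by
  have x0 : ∀ i, x i ≠ 0 := fun i => by simpa using (h i 0 (by omega)).1.ne_zero
  have lt : ∀ k ∈ [M, i1 W M, i2 W M, i3 W M], k < i3 W M + 1 := by
    simp only [List.forall_mem_cons, i1, i2, i3]
    refine ⟨by omega, by omega, by omega, by omega, by simp⟩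
  have l2 := lt (i2 W M) (by simp)
  have e : (fun i => (((x i + 0 * d i : ℕ) : ℤ) : ℚ) * ((d i : ℚ) / x i)) =
      fun i => ((d i : ℤ) : ℚ) := by
    funext i
    have : (x i : ℚ) ≠ 0 := by exact_mod_cast x0 i
    push_cast
    field_simp
    ring
  have a := rep_mul θ (fun i => (((x i + 0 * d i : ℕ) : ℤ) : ℚ)) (fun i => (d i : ℚ) / x i)
  rw [e] at a
  filter_upwards [a, rep_nonneg θ x d, hat_ne θ (fun i => x i + 0 * d i) (by simpa using x0),
    rep_loc θ ps hW d _ fun i => ⟨(h i _ l2).1, (h i _ l2).2.2⟩,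
    (eventually_all_finset (Finset.range (i3 W M + 1))).2 fun l _ => hat_ap θ (d := d) x0 l,
    (eventually_all_finset (Finset.range (i3 W M + 1))).2 fun l hl => rep_eight θ ps _ fun i =>
      ⟨(h i l (Finset.mem_range.1 hl)).1, (h i l (Finset.mem_range.1 hl)).2.1⟩]
    with w b0 s0 n0 loc ap v8
  simp only [Finset.mem_range] at ap v8
  change hat θ d w = hat θ (fun i => x i + 0 * d i) w * _ at b0
  rw [b0, ap _ l2, mul_div_mul_left _ _ n0] at loc
  refine point hW H hM s0 n0 loc (T := VF θ (2 ^ 2) F w) (fun p hp => prime_VF θ hp)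
    fun k hk p hp => ?_
  rw [← ap k (lt k hk)] at hp
  exact ⟨v8 k (lt k hk) p hp, Finset.mem_biUnion.2 ⟨_, hF k (lt k hk), hp⟩⟩

lemma dom_a (g : GT) {K W κ j : ℕ} {B : ℝ} (hK : 0 < K) (hB : 0 ≤ B)
    (hR : ∀ (x d : ℤ → ℕ) (F : Finset (ℤ → ℕ)), (∀ i, ∀ l < K, (x i + l * d i).Prime ∧
      (x i + l * d i) % 24 = 17 ∧ W < x i + l * d i) → (∀ l < K, (fun i => x i + l * d i) ∈ F) →
      ∀ᶠ w in U, logHeight₁ (rep θ (fun i => (d i : ℚ) / x i) w) ≤ B * (Mo θ (2 ^ j) F w) ^ κ)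
    (a : ℤ → ℕ) : Dom θ (2 ^ j) (fun w => logHeight₁ (hat θ a w) / (2 + 4 * B)) := by
  classical
  refine Dom.root ps (κ := κ) fun X => ?_
  choose x D hD hp using fun i => g (K * (a i + 2)) (X i + W)
  let c : ℤ → Fin 4 → ℕ := fun i => ![1, a i + 1, 1, 2]
  let d : ℤ → Fin 4 → ℕ := fun i l => c i l * D i
  have hl : ∀ i l, ∀ m < K, (x i + m * d i l).Prime ∧ (x i + m * d i l) % 24 = 17 ∧
      X i + W < x i + m * d i l := fun i l m hm => by
    have c1 : c i l ≤ a i + 2 := by fin_cases l <;> simp [c]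
    rw [← mul_assoc]
    exact hp i _ (Nat.mul_lt_mul_of_lt_of_le hm c1 (by omega))
  have e : ∀ i, d i 0 + a i * d i 3 = d i 1 + a i * d i 2 := fun i => by simp [d, c]; ring
  have ne : ∀ i, d i 2 ≠ d i 3 := fun i => by have := hD i; simp [d, c]; omega
  clear_value d
  let F : Finset (ℤ → ℕ) := ((Finset.range K) ×ˢ (Finset.univ : Finset (Fin 4))).image
    fun p => fun i => x i + p.1 * d i p.2
  have hF : ∀ q ∈ F, GS X q := by
    intro q hq i
    obtain ⟨⟨m, l⟩, h, rfl⟩ := Finset.mem_image.1 hq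
    have := hl i l m (Finset.mem_range.1 (Finset.mem_product.1 h).1)
    exact ⟨this.1, this.2.1, lt_of_le_of_lt (Nat.le_add_right _ _) this.2.2⟩
  refine ⟨F, hF, ?_⟩
  have r := fun l : Fin 4 => hR x (fun i => d i l) F
    (fun i m hm => ⟨(hl i l m hm).1, (hl i l m hm).2.1,
      lt_of_le_of_lt (Nat.le_add_left _ _) (hl i l m hm).2.2⟩) fun m hm =>
      Finset.mem_image.2 ⟨(m, l), Finset.mem_product.2
        ⟨Finset.mem_range.2 hm, Finset.mem_univ _⟩, rfl⟩
  have x0 : ∀ i, (x i : ℚ) ≠ 0 := fun i => by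
    simpa using (hl i 0 0 hK).1.ne_zero
  let s : Fin 4 → ℤ → ℚ := fun l i => (d i l : ℚ) / x i
  have e1 : (fun i => s 1 i + ((a i : ℤ) : ℚ) * (s 2 i - s 3 i)) = s 0 := by
    funext i
    have h1 : (d i 0 : ℚ) + a i * d i 3 = d i 1 + a i * d i 2 := by exact_mod_cast e i
    have := x0 i
    simp only [s]
    push_cast
    field_simp
    linear_combination -h1
  have e2 : (fun i => (s 2 i - s 3 i) + s 3 i) = s 2 := by funext i; ring
  have a1 := rep_add θ (s 1) (fun i => ((a i : ℤ) : ℚ) * (s 2 i - s 3 i))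
  have a2 := rep_add θ (fun i => s 2 i - s 3 i) (s 3)
  rw [e1] at a1
  rw [e2] at a2
  have a3 := rep_ne θ (fun i => s 2 i - s 3 i) fun i => by
    simp only [s]
    rw [← sub_div]
    exact div_ne_zero (sub_ne_zero.2 (by exact_mod_cast ne i)) (x0 i)
  filter_upwards [r 0, r 1, r 2, r 3, a1, a2, a3,
    rep_mul θ (fun i => ((a i : ℤ) : ℚ)) (fun i => s 2 i - s 3 i)] with w s0 s1 s2 s3 b1 b2 b3 b4
  change logHeight₁ (rep θ (s _) w) ≤ _ at s0 s1 s2 s3
  change _ = hat θ a w * _ at b4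
  have b5 : rep θ (fun i => s 2 i - s 3 i) w = rep θ (s 2) w - rep θ (s 3) w := by rw [b2]; ring
  rw [b4, b5] at b1
  rw [b5] at b3
  have e : hat θ a w = (rep θ (s 0) w - rep θ (s 1) w) / (rep θ (s 2) w - rep θ (s 3) w) := by
    rw [b1]; field_simp; ring
  have t1 := (congrArg logHeight₁ e).trans_le (h_div _ _)
  have t2 := h_sub (rep θ (s 0) w) (rep θ (s 1) w)
  have t3 := h_sub (rep θ (s 2) w) (rep θ (s 3) w)
  have m1 : (1 : ℝ) ≤ (Mo θ (2 ^ j) F w : ℝ) ^ κ :=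
    one_le_pow₀ (by exact_mod_cast one_le_Mo θ _ F w)
  rw [abs_of_nonneg (div_nonneg (zero_le_logHeight₁ _) (by positivity)),
    div_le_iff₀ (by positivity)]
  nlinarith

end

end Vale.Agent.P027M.A

namespace Vale.Agent.P027M

open Filter Height Vale.Agent.P027Z Vale.Agent.P027G MvPolynomial A

/-- **block A** -/
theorem neg_of_HT (h : HT) : Neg := by
  obtain ⟨W, δ, κ, C, hW, hδ, H⟩ := h
  obtain ⟨M, hM⟩ := exists_nat_gt ((2 * 17689 * 17209 * 16249 * W : ℚ) / δ)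
  rw [div_lt_iff₀' hδ] at hM
  have ps := parStar c1 p1
  have hB : 0 ≤ cst W M + 2 * (|C| * La ^ κ) := add_nonneg (cst_nonneg W M) (by positivity)
  obtain ⟨m, S, f, b1, b2⟩ := crit Set.univ {x | ∃ n : ℤ, x = n} (by
    intro J U θ _
    rw [← rep_spec, Germ.liftPred_coe]
    exact rep_intK ps (by positivity) (A.dom_a θ ps (gt (rel szw) maj) (Nat.succ_pos _) hB
      fun x d F a b => ratio θ ps hW H hM a b) a1 a2 id)
  have : ∃ (m : ℕ) (g : MvPolynomial (Option (Fin m)) ℤ), ∀ x : ℚ,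
      (∃ n : ℤ, x = n) ↔ ∃ y : Fin m → ℚ, aeval (fun o : Option (Fin m) => o.elim x y) g = 0 :=
    ⟨m, f, fun x => ⟨fun ⟨n, e⟩ => e ▸ (b1 n).imp fun y c => c.2,
      fun ⟨y, c⟩ => b2 x y (fun _ _ => trivial) c⟩⟩
  exact ⟨this, undec_of_int this⟩

end Vale.Agent.P027M
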